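import Vale.Agent.P022D.Sel.Defs

/-!
# P022S, block R: framed lifts over finite local rings

No universal deformation ring is formed. A test object is a finite local ring with a lift of the
residual representation and a frame at each place of `T`.
-/

set_option linter.all false

noncomputable section

namespace Vale.Agent.P022S.R

open NumberField
open Vale.Agent.P022 Vale.Agent.P022.C
open Vale.Agent.P027M.S (Inert mx)
open Vale.Agent.P022D.Sel (M2 Tan TanP)

/-- the fixed data -/
structure Dat (O F : Type) [CommRing O] [Field F] where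
  red : O →+* F
  rb : GQ →* GL (Fin 2) F
  T : Finset ℕ
  l0 : ℕ
  surj : Function.Surjective red
  hl0 : l0 ∈ T

variable {O F : Type} [CommRing O] [Field F]

/-- a framed lift over a finite local ring; the local representation at `l` is
`β l * ρ g * α l` -/
structure Obj (S : Dat O F) (A : Type) [CommRing A] where
  ι : O →+* A
  π : A →+* F
  ρ : GQ →* M2 A
  α : ℕ → M2 A
  β : ℕ → M2 A
  fin : Finite A
  loc : ∀ a, π a ≠ 0 → IsUnit a
  alg : ∀ c, π (ι c) = S.red c
  res : ∀ g, (ρ g).map π = mx S.rb g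
  opn : IsOpen {g | ρ g = 1}
  inv : ∀ l, α l * β l = 1
  one : ∀ l, (α l).map π = 1
  off : ∀ l ∉ S.T, α l = 1
  fr : α S.l0 = 1

variable {S : Dat O F}

/-- morphisms of test objects -/
structure Hom {A B : Type} [CommRing A] [CommRing B] (X : Obj S A) (Y : Obj S B)
    (u : A →+* B) : Prop where
  ι : ∀ c, u (X.ι c) = Y.ι c
  ρ : ∀ g, (X.ρ g).map u = Y.ρ g
  α : ∀ l, (X.α l).map u = Y.α l

/-- unramified outside `T` and `Q` -/
def Unr {A : Type} [CommRing A] (X : Obj S A) (Q : Finset ℕ) : Prop :=
  ∀ l : ℕ, l.Prime → l ∉ S.T → l ∉ Q → ∀ P : Ideal (𝓞 Qb), P.IsPrime → (l : 𝓞 Qb) ∈ P →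
    ∀ g, Inert P g → X.ρ g = 1

variable (S) in
/-- classes of test objects -/
abbrev Cl : Type 1 := ∀ (A : Type) [CommRing A], Obj S A → Prop

/-- a class which is stable under images and under jointly injective pairs -/
structure Closed (C : Cl S) : Prop where
  push : ∀ (A B : Type) [CommRing A] [CommRing B] (X : Obj S A) (Y : Obj S B) (u : A →+* B),
    Hom X Y u → C A X → C B Y
  pull : ∀ (A B B' : Type) [CommRing A] [CommRing B] [CommRing B'] (X : Obj S A) (Y : Obj S B)
    (Y' : Obj S B') (u : A →+* B) (u' : A →+* B'), Hom X Y u → Hom X Y' u' →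
    (∀ a, u a = 0 → u' a = 0 → a = 0) → C B Y → C B' Y' → C A X

/-- the objects of `C` which are unramified outside `T` and `Q` -/
def Ty (C : Cl S) (Q : Finset ℕ) : Cl S := fun A _ X => C A X ∧ Unr X Q

variable (S) in
/-- families of coordinates -/
abbrev Crd (τ : Type) : Type 1 := ∀ (A : Type) [CommRing A], Obj S A → τ → A

/-- local coordinates: natural, in the maximal ideal, and their vanishing over the dual numbers
forces the local representations to be constant -/
structure Loc {τ : Type} (D : ℕ → Set GQ) (C : Cl S) (κ : Crd S τ) : Prop where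
  nat : ∀ (A B : Type) [CommRing A] [CommRing B] (X : Obj S A) (Y : Obj S B) (u : A →+* B),
    Hom X Y u → C A X → ∀ i, u (κ A X i) = κ B Y i
  res : ∀ (A : Type) [CommRing A] (X : Obj S A), C A X → ∀ i, X.π (κ A X i) = 0
  tan : ∀ Y : Obj S (DualNumber F), (∀ a, Y.π a = a.fst) →
    (∀ c, Y.ι c = TrivSqZeroExt.inl (S.red c)) → C _ Y → (∀ i, κ _ Y i = 0) →
    ∀ l ∈ S.T, ∀ g ∈ D l, Y.β l * Y.ρ g * Y.α l = (mx S.rb g).map TrivSqZeroExt.inl

end Vale.Agent.P022S.R
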